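import Vale.Agent.P317.Main

namespace Vale.Agent.Results.P317.FPRAS

open Vale.Agent.P317 Turing

/-- An FPRAS for the number of common bases of two matroids of equal rank given by independence
oracles.  `Q` computes the next oracle query and `A` the output fraction; both are polynomial time
Turing machines that see only `(n, ε, δ)`, the coins and the oracle answers received so far. -/
theorem result : ∃ (d : ℕ) (Q : View → Bool × List Bool) (A : View → ℕ × ℕ)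
    (tq : TM2ComputableInPolyTime encView (encPair encBool (encList encBool)) Q)
    (ta : TM2ComputableInPolyTime encView (encPair encNat encNat) A),
    (∀ k, Finite (tq.tm.Γ k)) ∧ (∀ k, Finite (ta.tm.Γ k)) ∧
    ∀ (n : ℕ) (M₁ M₂ : Matroid (Fin n)), M₁.E = Set.univ → M₂.E = Set.univ → M₁.eRank = M₂.eRank →
      ∀ ε δ : ℚ, 0 < ε → ε < 1 → 0 < δ → δ < 1 →
        ∀ ρ : ℕ, (n + ⌈1 / ε⌉₊ + Nat.log 2 ⌈1 / δ⌉₊ + 2) ^ d ≤ ρ →
          1 - (δ : ℝ) ≤ coinProb ρ fun w =>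
            let N : ℝ := {B | M₁.IsBase B ∧ M₂.IsBase B}.ncard
            let z := A ((n, ε, δ), w, answers (oracle M₁ M₂) (fun h => Q ((n, ε, δ), w, h)) ρ)
            (1 - (ε : ℝ)) * N ≤ (z.1 : ℝ) / z.2 ∧ (z.1 : ℝ) / z.2 ≤ (1 + (ε : ℝ)) * N := by
  obtain ⟨tq, hq⟩ := poly_Q
  obtain ⟨ta, ha⟩ := poly_A
  exact ⟨280, algQ, algA, tq, ta, hq, ha, fun n M₁ M₂ _ _ hr ε δ e0 e1 d0 _ ρ hρ =>
    fpras hr e0 e1 d0 hρ (fun z => (1 - (ε : ℝ)) * {B | M₁.IsBase B ∧ M₂.IsBase B}.ncard ≤ (z.1 : ℝ) / z.2 ∧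
      (z.1 : ℝ) / z.2 ≤ (1 + (ε : ℝ)) * {B | M₁.IsBase B ∧ M₂.IsBase B}.ncard) fun _ a b => ⟨a, b⟩⟩

end Vale.Agent.Results.P317.FPRAS
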